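import Vale.Agent.P159.TM.H992.Logm
import Mathlib.NumberTheory.ZetaValues

/-!
Row SUSM of module (I): the elementary mode sum of a big cell (Parseval for a cell).
-/

namespace Vale.Agent.P159.TM.H970

open Finset Real

theorem b2 (x : ℝ) : (Polynomial.map (algebraMap ℚ ℝ) (Polynomial.bernoulli 2)).eval x =
    x ^ 2 - x + 1 / 6 := by
  simp [Polynomial.bernoulli, Finset.sum_range_succ, bernoulli_two, bernoulli_one]
  ring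

theorem cos_sum {x : ℝ} (hx : x ∈ Set.Icc (0 : ℝ) 1) :
    HasSum (fun n : ℕ => 1 / (n : ℝ) ^ 2 * cos (2 * π * n * x)) (π ^ 2 * (x ^ 2 - x + 1 / 6)) := by
  have h := hasSum_one_div_nat_pow_mul_cos (k := 1) one_ne_zero hx
  rw [mul_one, b2] at h
  have hv : (-1 : ℝ) ^ (1 + 1) * (2 * π) ^ 2 / 2 / ((Nat.factorial 2 : ℕ) : ℝ) *
      (x ^ 2 - x + 1 / 6) = π ^ 2 * (x ^ 2 - x + 1 / 6) := by
    rw [Nat.factorial_two]; push_cast; ring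
  rwa [hv] at h

/-- the mass of the mode `m` in the indicator of a cell -/
noncomputable def A (s i m : ℕ) : ℝ := SpecI.cavg s i m ^ 2 / SpecI.cn m

theorem A_nonneg (s i m : ℕ) : 0 ≤ A s i m := by
  unfold A SpecI.cn
  split_ifs <;> positivity

theorem sq_two_pow (s : ℕ) : ((2 : ℝ) ^ (s + 1)) ^ 2 = 4 * 4 ^ s := by
  rw [← pow_mul, mul_comm (s + 1) 2, pow_mul, pow_succ]
  norm_num
  ring

theorem A_zero (s i : ℕ) : A s i 0 = 1 := by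
  unfold A SpecI.cavg SpecI.cn
  have h2 : (2 : ℝ) ^ s ≠ 0 := by positivity
  have h : (2 : ℝ) ^ s * (((i : ℝ) + 1) / 2 ^ s - (i : ℝ) / 2 ^ s) = 1 := by
    field_simp; ring
  simp only [Nat.cast_zero, zero_mul, cos_zero, intervalIntegral.integral_const, smul_eq_mul,
    mul_one, if_true]
  rw [h]
  norm_num

theorem A_eq (s i m : ℕ) (hm : 0 < m) : A s i m = 2 * 4 ^ s / π ^ 2 *
    (1 / (m : ℝ) ^ 2 * cos (2 * π * m * 0)
      - 1 / 2 * (1 / (m : ℝ) ^ 2 * cos (2 * π * m * (((i : ℝ) + 1) / 2 ^ s)))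
      - 1 / 2 * (1 / (m : ℝ) ^ 2 * cos (2 * π * m * ((i : ℝ) / 2 ^ s)))
      - 1 / (m : ℝ) ^ 2 * cos (2 * π * m * (1 / 2 ^ (s + 1)))
      + 1 / (m : ℝ) ^ 2 * cos (2 * π * m * ((2 * i + 1) / 2 ^ (s + 1)))) := by
  have hm' : (m : ℝ) ≠ 0 := by exact_mod_cast hm.ne'
  have hπ : (π : ℝ) ≠ 0 := pi_ne_zero
  have h2 : (2 : ℝ) ^ s ≠ 0 := by positivity
  unfold A SpecI.cn
  rw [if_neg hm.ne', H992.cavg_eq s i m hm]
  set u : ℝ := m * π / 2 ^ (s + 1) with hu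
  set v : ℝ := m * (π * ((2 * i + 1) / 2 ^ (s + 1))) with hv
  have e0 : 2 * π * m * (0 : ℝ) = 0 := mul_zero _
  have e1 : 2 * π * m * (((i : ℝ) + 1) / 2 ^ s) = 2 * (v + u) := by
    rw [hu, hv, pow_succ]; field_simp; ring
  have e2 : 2 * π * m * ((i : ℝ) / 2 ^ s) = 2 * (v - u) := by
    rw [hu, hv, pow_succ]; field_simp; ring
  have e3 : 2 * π * m * ((1 : ℝ) / 2 ^ (s + 1)) = 2 * u := by rw [hu]; ring
  have e4 : 2 * π * m * ((2 * (i : ℝ) + 1) / 2 ^ (s + 1)) = 2 * v := by rw [hv]; ring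
  rw [e0, e1, e2, e3, e4]
  have hu2 : u ^ 2 = m ^ 2 * π ^ 2 / (4 * 4 ^ s) := by
    rw [hu, div_pow, mul_pow, sq_two_pow]
  have hu0 : u ≠ 0 := by rw [hu]; positivity
  have h4 : (4 : ℝ) ^ s ≠ 0 := by positivity
  have key : 1 - 1 / 2 * cos (2 * (v + u)) - 1 / 2 * cos (2 * (v - u)) - cos (2 * u) + cos (2 * v)
      = 4 * cos v ^ 2 * sin u ^ 2 := by
    have a1 : cos (2 * (v + u)) = 2 * cos (v + u) ^ 2 - 1 := cos_two_mul _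
    have a2 : cos (2 * (v - u)) = 2 * cos (v - u) ^ 2 - 1 := cos_two_mul _
    rw [a1, a2, cos_two_mul u, cos_two_mul v, cos_add, cos_sub]
    have s1 := sin_sq_add_cos_sq u
    have s2 := sin_sq_add_cos_sq v
    have s3 : sin v ^ 2 = 1 - cos v ^ 2 := by linarith
    have s4 : cos u ^ 2 = 1 - sin u ^ 2 := by linarith
    ring_nf
    rw [s3, s4]
    ring
  rw [mul_pow, div_pow, hu2, cos_zero]
  have : 2 * 4 ^ s / π ^ 2 * (1 / (m : ℝ) ^ 2 * 1 - 1 / 2 * (1 / (m : ℝ) ^ 2 * cos (2 * (v + u)))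
      - 1 / 2 * (1 / (m : ℝ) ^ 2 * cos (2 * (v - u))) - 1 / (m : ℝ) ^ 2 * cos (2 * u)
      + 1 / (m : ℝ) ^ 2 * cos (2 * v)) = 2 * 4 ^ s / π ^ 2 / (m : ℝ) ^ 2 *
      (1 - 1 / 2 * cos (2 * (v + u)) - 1 / 2 * cos (2 * (v - u)) - cos (2 * u) + cos (2 * v)) := by
    ring
  rw [this, key]
  field_simp

/-- Parseval for the indicator of a cell -/
theorem parseval (s i : ℕ) (hi : i < 2 ^ s) : HasSum (A s i) (2 ^ s) := by
  have h2 : (0 : ℝ) < 2 ^ s := by positivity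
  have hiR : (i : ℝ) + 1 ≤ 2 ^ s := by exact_mod_cast hi
  have hi0 : (0 : ℝ) ≤ i := Nat.cast_nonneg i
  have m0 : (0 : ℝ) ∈ Set.Icc (0 : ℝ) 1 := by constructor <;> norm_num
  have m1 : ((i : ℝ) + 1) / 2 ^ s ∈ Set.Icc (0 : ℝ) 1 :=
    ⟨by positivity, by rw [div_le_one h2]; exact hiR⟩
  have m2 : (i : ℝ) / 2 ^ s ∈ Set.Icc (0 : ℝ) 1 :=
    ⟨by positivity, by rw [div_le_one h2]; linarith⟩
  have m3 : (1 : ℝ) / 2 ^ (s + 1) ∈ Set.Icc (0 : ℝ) 1 :=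
    ⟨by positivity, by rw [div_le_one (by positivity)]; exact one_le_pow₀ (by norm_num)⟩
  have m4 : (2 * (i : ℝ) + 1) / 2 ^ (s + 1) ∈ Set.Icc (0 : ℝ) 1 :=
    ⟨by positivity, by rw [div_le_one (by positivity), pow_succ]; linarith⟩
  have H := ((((cos_sum m0).sub ((cos_sum m1).mul_left (1 / 2))).sub
    ((cos_sum m2).mul_left (1 / 2))).sub (cos_sum m3)).add (cos_sum m4)
  have H2 := (H.mul_left (2 * 4 ^ s / π ^ 2)).add (hasSum_ite_eq (0 : ℕ) (1 : ℝ))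
  have hval : 2 * 4 ^ s / π ^ 2 *
        (π ^ 2 * ((0 : ℝ) ^ 2 - 0 + 1 / 6) -
          1 / 2 * (π ^ 2 * ((((i : ℝ) + 1) / 2 ^ s) ^ 2 - ((i : ℝ) + 1) / 2 ^ s + 1 / 6)) -
          1 / 2 * (π ^ 2 * (((i : ℝ) / 2 ^ s) ^ 2 - (i : ℝ) / 2 ^ s + 1 / 6)) -
          π ^ 2 * ((1 / 2 ^ (s + 1)) ^ 2 - 1 / 2 ^ (s + 1) + 1 / 6) +
          π ^ 2 * (((2 * (i : ℝ) + 1) / 2 ^ (s + 1)) ^ 2 - (2 * (i : ℝ) + 1) / 2 ^ (s + 1) + 1 / 6)) +
      1 = (2 : ℝ) ^ s := by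
    have hπ : (π : ℝ) ≠ 0 := pi_ne_zero
    have h4 : (4 : ℝ) ^ s = 2 ^ s * 2 ^ s := by rw [← mul_pow]; norm_num
    rw [h4, pow_succ]
    field_simp
    ring
  rw [hval] at H2
  refine (congrArg (fun f : ℕ → ℝ => HasSum f ((2 : ℝ) ^ s)) (funext fun m => ?_)).mp H2
  rcases Nat.eq_zero_or_pos m with rfl | hm
  · simp [A_zero]
  · rw [A_eq s i m hm, if_neg hm.ne', add_zero]

theorem A_le (s i m : ℕ) (hm : 0 < m) : A s i m ≤ 8 * 4 ^ s / π ^ 2 * ((m : ℝ) ^ 2)⁻¹ := by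
  have hm' : (0 : ℝ) < m := by exact_mod_cast hm
  have hπ := pi_pos
  unfold A SpecI.cn
  rw [if_neg hm.ne', H992.cavg_eq s i m hm]
  set u : ℝ := m * π / 2 ^ (s + 1) with hu
  set v : ℝ := m * (π * ((2 * i + 1) / 2 ^ (s + 1))) with hv
  have hu2 : u ^ 2 = m ^ 2 * π ^ 2 / (4 * 4 ^ s) := by
    rw [hu, div_pow, mul_pow, sq_two_pow]
  rw [mul_pow, div_pow, hu2]
  have h1 : cos v ^ 2 ≤ 1 := cos_sq_le_one v
  have h2 : sin u ^ 2 ≤ 1 := sin_sq_le_one u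
  have h3 : cos v ^ 2 * sin u ^ 2 ≤ 1 := by
    calc cos v ^ 2 * sin u ^ 2 ≤ 1 * 1 := mul_le_mul h1 h2 (sq_nonneg _) (by norm_num)
      _ = 1 := by norm_num
  calc cos v ^ 2 * (sin u ^ 2 / (m ^ 2 * π ^ 2 / (4 * 4 ^ s))) / (1 / 2)
      = (cos v ^ 2 * sin u ^ 2) * (8 * 4 ^ s / π ^ 2 * ((m : ℝ) ^ 2)⁻¹) := by
        field_simp; ring
    _ ≤ 1 * (8 * 4 ^ s / π ^ 2 * ((m : ℝ) ^ 2)⁻¹) :=
        mul_le_mul_of_nonneg_right h3 (by positivity)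
    _ = _ := one_mul _

/-- the loss of one direction -/
theorem loss (Y : ℝ) (hY : 0 < Y) (s j i M : ℕ) :
    ∑ m ∈ range (M + 1), A s j m * min 1 (π ^ 2 * (m : ℝ) ^ 2 / (Y * 4 ^ i)) ≤
      8 * 4 ^ s / 2 ^ i * (1 / Y + 1 / π ^ 2) := by
  have hπ := pi_pos
  set N : ℕ := 2 ^ i with hN
  have hN0 : N ≠ 0 := by positivity
  have hNR : (N : ℝ) = 2 ^ i := by rw [hN]; push_cast; rfl
  have h4i : (4 : ℝ) ^ i = 2 ^ i * 2 ^ i := by rw [← mul_pow]; norm_num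
  have h2i : (0 : ℝ) < 2 ^ i := by positivity
  have e1 : ∑ m ∈ range (M + 1), A s j m * min 1 (π ^ 2 * (m : ℝ) ^ 2 / (Y * 4 ^ i)) ≤
      ∑ m ∈ range (M + 1 + N), A s j m * min 1 (π ^ 2 * (m : ℝ) ^ 2 / (Y * 4 ^ i)) :=
    sum_le_sum_of_subset_of_nonneg (range_subset_range.mpr (Nat.le_add_right _ _))
      fun m _ _ => mul_nonneg (A_nonneg _ _ _) (by positivity)
  have hsplit : range (M + 1 + N) = range (N + 1) ∪ Ioc N (M + N) := by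
    ext m
    simp only [mem_range, mem_union, mem_Ioc]
    omega
  have hdisj : Disjoint (range (N + 1)) (Ioc N (M + N)) := by
    rw [disjoint_left]
    intro m h1 h2
    rw [mem_range] at h1
    rw [mem_Ioc] at h2
    omega
  rw [hsplit, sum_union hdisj] at e1
  have e2 : ∑ m ∈ range (N + 1), A s j m * min 1 (π ^ 2 * (m : ℝ) ^ 2 / (Y * 4 ^ i)) ≤
      8 * 4 ^ s / 2 ^ i * (1 / Y) := by
    rw [sum_range_succ']
    have z : A s j 0 * min 1 (π ^ 2 * ((0 : ℕ) : ℝ) ^ 2 / (Y * 4 ^ i)) = 0 := by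
      simp
    rw [z, add_zero]
    calc ∑ m ∈ range N, A s j (m + 1) * min 1 (π ^ 2 * ((m + 1 : ℕ) : ℝ) ^ 2 / (Y * 4 ^ i))
        ≤ ∑ m ∈ range N, 8 * 4 ^ s / (Y * 4 ^ i) := by
          refine sum_le_sum fun m _ => ?_
          have hm0 : (0 : ℝ) < ((m + 1 : ℕ) : ℝ) := by positivity
          calc A s j (m + 1) * min 1 (π ^ 2 * ((m + 1 : ℕ) : ℝ) ^ 2 / (Y * 4 ^ i))
              ≤ (8 * 4 ^ s / π ^ 2 * (((m + 1 : ℕ) : ℝ) ^ 2)⁻¹) *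
                (π ^ 2 * ((m + 1 : ℕ) : ℝ) ^ 2 / (Y * 4 ^ i)) :=
                mul_le_mul (A_le s j (m + 1) (Nat.succ_pos m)) (min_le_right _ _)
                  (by positivity) (by positivity)
            _ = 8 * 4 ^ s / (Y * 4 ^ i) := by
                field_simp
      _ = 8 * 4 ^ s / 2 ^ i * (1 / Y) := by
          rw [sum_const, card_range, nsmul_eq_mul, hNR, h4i]
          field_simp
  have e3 : ∑ m ∈ Ioc N (M + N), A s j m * min 1 (π ^ 2 * (m : ℝ) ^ 2 / (Y * 4 ^ i)) ≤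
      8 * 4 ^ s / 2 ^ i * (1 / π ^ 2) := by
    calc ∑ m ∈ Ioc N (M + N), A s j m * min 1 (π ^ 2 * (m : ℝ) ^ 2 / (Y * 4 ^ i))
        ≤ ∑ m ∈ Ioc N (M + N), 8 * 4 ^ s / π ^ 2 * ((m : ℝ) ^ 2)⁻¹ := by
          refine sum_le_sum fun m hm => ?_
          rw [mem_Ioc] at hm
          calc A s j m * min 1 (π ^ 2 * (m : ℝ) ^ 2 / (Y * 4 ^ i)) ≤ A s j m * 1 :=
                mul_le_mul_of_nonneg_left (min_le_left _ _) (A_nonneg _ _ _)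
            _ ≤ _ := by rw [mul_one]; exact A_le s j m (lt_of_le_of_lt (Nat.zero_le _) hm.1)
      _ = 8 * 4 ^ s / π ^ 2 * ∑ m ∈ Ioc N (M + N), ((m : ℝ) ^ 2)⁻¹ := by rw [mul_sum]
      _ ≤ 8 * 4 ^ s / π ^ 2 * (N : ℝ)⁻¹ := by
          refine mul_le_mul_of_nonneg_left ?_ (by positivity)
          have := sum_Ioc_inv_sq_le_sub (α := ℝ) hN0 (Nat.le_add_left N M)
          have h0 : (0 : ℝ) ≤ ((M + N : ℕ) : ℝ)⁻¹ := by positivity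
          linarith
      _ = _ := by rw [hNR]; field_simp
  calc _ ≤ _ := e1
    _ ≤ _ := add_le_add e2 e3
    _ = _ := by ring

theorem inv_ge (x y : ℝ) (hx : 0 ≤ x) (hy : 0 ≤ y) :
    1 - min 1 x - min 1 y ≤ 1 / (1 + (x + y)) := by
  rcases le_or_gt 1 x with h | h
  · rw [min_eq_left h]
    have : 0 ≤ min 1 y := le_min (by norm_num) hy
    have h2 : 0 ≤ 1 / (1 + (x + y)) := by positivity
    linarith
  rcases le_or_gt 1 y with h' | h'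
  · rw [min_eq_left h']
    have : 0 ≤ min 1 x := le_min (by norm_num) hx
    have h2 : 0 ≤ 1 / (1 + (x + y)) := by positivity
    linarith
  rw [min_eq_right h.le, min_eq_right h'.le, le_div_iff₀ (by positivity)]
  nlinarith [mul_nonneg hx hy, sq_nonneg x, sq_nonneg y]

theorem susm : SpecI.SUSM := by
  intro Y hY
  have hπ := pi_pos
  refine ⟨16 * (1 / Y + 1 / π ^ 2), by positivity, fun i s hs i₁ j₁ hi hj δ hδ => ?_⟩
  have h4s : (4 : ℝ) ^ s = 2 ^ s * 2 ^ s := by rw [← mul_pow]; norm_num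
  have h4i : (4 : ℝ) ^ i = 2 ^ i * 2 ^ i := by rw [← mul_pow]; norm_num
  have h2s : (0 : ℝ) < 2 ^ s := by positivity
  have h2i : (0 : ℝ) < 2 ^ i := by positivity
  set d : ℝ := min (δ / 2) 1 with hd
  have hd0 : 0 < d := lt_min (by positivity) (by norm_num)
  have hd1 : d ≤ 1 := min_le_right _ _
  have hdδ : d ≤ δ / 2 := min_le_left _ _
  have P1 := (parseval s i₁ hi).tendsto_sum_nat
  have P2 := (parseval s j₁ hj).tendsto_sum_nat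
  have q1 : ∀ᶠ n in Filter.atTop, 2 ^ s * (1 - d) < ∑ m ∈ range n, A s i₁ m :=
    P1.eventually (lt_mem_nhds (by nlinarith))
  have q2 : ∀ᶠ n in Filter.atTop, 2 ^ s * (1 - d) < ∑ m ∈ range n, A s j₁ m :=
    P2.eventually (lt_mem_nhds (by nlinarith))
  obtain ⟨M, hM1, hM2⟩ := ((q1.and q2).and (Filter.eventually_ge_atTop 1)).exists
  obtain ⟨hA, hB⟩ := hM1
  obtain ⟨M', rfl⟩ : ∃ M', M = M' + 1 := ⟨M - 1, by omega⟩
  have uA : ∑ m ∈ range (M' + 1), A s i₁ m ≤ 2 ^ s :=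
    sum_le_hasSum _ (fun m _ => A_nonneg _ _ _) (parseval s i₁ hi)
  have uB : ∑ m ∈ range (M' + 1), A s j₁ m ≤ 2 ^ s :=
    sum_le_hasSum _ (fun m _ => A_nonneg _ _ _) (parseval s j₁ hj)
  have lA := loss Y hY s i₁ i M'
  have lB := loss Y hY s j₁ i M'
  set a := ∑ m ∈ range (M' + 1), A s i₁ m with ha
  set b := ∑ m ∈ range (M' + 1), A s j₁ m with hb
  set L1 := ∑ m ∈ range (M' + 1), A s i₁ m * min 1 (π ^ 2 * (m : ℝ) ^ 2 / (Y * 4 ^ i)) with hL1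
  set L2 := ∑ m ∈ range (M' + 1), A s j₁ m * min 1 (π ^ 2 * (m : ℝ) ^ 2 / (Y * 4 ^ i)) with hL2
  have L10 : 0 ≤ L1 := sum_nonneg fun m _ => mul_nonneg (A_nonneg _ _ _) (by positivity)
  have L20 : 0 ≤ L2 := sum_nonneg fun m _ => mul_nonneg (A_nonneg _ _ _) (by positivity)
  have b0 : 0 ≤ b := sum_nonneg fun m _ => A_nonneg _ _ _
  have a0 : 0 ≤ a := sum_nonneg fun m _ => A_nonneg _ _ _
  refine ⟨range (M' + 1) ×ˢ range (M' + 1), ?_⟩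
  have key : ∀ m ∈ range (M' + 1) ×ˢ range (M' + 1),
      1 / 4 ^ i * (A s i₁ m.1 * A s j₁ m.2 -
        (A s i₁ m.1 * min 1 (π ^ 2 * (m.1 : ℝ) ^ 2 / (Y * 4 ^ i))) * A s j₁ m.2 -
        A s i₁ m.1 * (A s j₁ m.2 * min 1 (π ^ 2 * (m.2 : ℝ) ^ 2 / (Y * 4 ^ i)))) ≤
      (SpecI.cavg s i₁ m.1 * SpecI.cavg s j₁ m.2) ^ 2 /
        (SpecI.cn m.1 * SpecI.cn m.2 * (((2 : ℝ) ^ i) ^ 2 +
          π ^ 2 * ((m.1 : ℝ) ^ 2 + (m.2 : ℝ) ^ 2) / Y)) := by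
    rintro ⟨p, q⟩ -
    simp only
    have hp : 0 < SpecI.cn p := by unfold SpecI.cn; split_ifs <;> norm_num
    have hq : 0 < SpecI.cn q := by unfold SpecI.cn; split_ifs <;> norm_num
    have hi1 := inv_ge (π ^ 2 * (p : ℝ) ^ 2 / (Y * 4 ^ i)) (π ^ 2 * (q : ℝ) ^ 2 / (Y * 4 ^ i))
      (by positivity) (by positivity)
    have hden : ((2 : ℝ) ^ i) ^ 2 + π ^ 2 * ((p : ℝ) ^ 2 + (q : ℝ) ^ 2) / Y =
        4 ^ i * (1 + (π ^ 2 * (p : ℝ) ^ 2 / (Y * 4 ^ i) + π ^ 2 * (q : ℝ) ^ 2 / (Y * 4 ^ i))) := by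
      rw [h4i]; field_simp
    rw [hden]
    have hAB : 0 ≤ A s i₁ p * A s j₁ q := mul_nonneg (A_nonneg _ _ _) (A_nonneg _ _ _)
    have hpos : 0 < 1 + (π ^ 2 * (p : ℝ) ^ 2 / (Y * 4 ^ i) + π ^ 2 * (q : ℝ) ^ 2 / (Y * 4 ^ i)) := by
      positivity
    calc 1 / 4 ^ i * (A s i₁ p * A s j₁ q -
        (A s i₁ p * min 1 (π ^ 2 * (p : ℝ) ^ 2 / (Y * 4 ^ i))) * A s j₁ q -
        A s i₁ p * (A s j₁ q * min 1 (π ^ 2 * (q : ℝ) ^ 2 / (Y * 4 ^ i))))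
        = 1 / 4 ^ i * (A s i₁ p * A s j₁ q * (1 - min 1 (π ^ 2 * (p : ℝ) ^ 2 / (Y * 4 ^ i)) -
          min 1 (π ^ 2 * (q : ℝ) ^ 2 / (Y * 4 ^ i)))) := by ring
      _ ≤ 1 / 4 ^ i * (A s i₁ p * A s j₁ q *
          (1 / (1 + (π ^ 2 * (p : ℝ) ^ 2 / (Y * 4 ^ i) + π ^ 2 * (q : ℝ) ^ 2 / (Y * 4 ^ i))))) :=
          mul_le_mul_of_nonneg_left (mul_le_mul_of_nonneg_left hi1 hAB) (by positivity)
      _ = _ := by
          unfold A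
          field_simp
  refine le_trans ?_ (sum_le_sum key)
  have hsum : ∑ m ∈ range (M' + 1) ×ˢ range (M' + 1),
      1 / 4 ^ i * (A s i₁ m.1 * A s j₁ m.2 -
        (A s i₁ m.1 * min 1 (π ^ 2 * (m.1 : ℝ) ^ 2 / (Y * 4 ^ i))) * A s j₁ m.2 -
        A s i₁ m.1 * (A s j₁ m.2 * min 1 (π ^ 2 * (m.2 : ℝ) ^ 2 / (Y * 4 ^ i)))) =
      1 / 4 ^ i * (a * b - L1 * b - a * L2) := by
    rw [← mul_sum, sum_sub_distrib, sum_sub_distrib, ha, hb, hL1, hL2, sum_mul_sum, sum_mul_sum,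
      sum_mul_sum, sum_product, sum_product, sum_product]
  rw [hsum]
  have hab : 2 ^ s * (1 - d) * (2 ^ s * (1 - d)) ≤ a * b :=
    mul_le_mul hA.le hB.le (mul_nonneg h2s.le (by linarith)) a0
  have hLb : L1 * b ≤ 8 * 4 ^ s / 2 ^ i * (1 / Y + 1 / π ^ 2) * 2 ^ s :=
    mul_le_mul lA uB b0 (by positivity)
  have haL : a * L2 ≤ 2 ^ s * (8 * 4 ^ s / 2 ^ i * (1 / Y + 1 / π ^ 2)) :=
    mul_le_mul uA lB L20 h2s.le
  have hpow : (2 : ℝ) ^ (i - s) = 2 ^ i / 2 ^ s := by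
    rw [pow_sub₀ _ (by norm_num) hs]; rfl
  rw [hpow]
  have hfin : (1 - 16 * (1 / Y + 1 / π ^ 2) / (2 ^ i / 2 ^ s) - δ) * 4 ^ s ≤
      a * b - L1 * b - a * L2 := by
    have t1 : 16 * (1 / Y + 1 / π ^ 2) / (2 ^ i / 2 ^ s) * 4 ^ s =
        8 * 4 ^ s / 2 ^ i * (1 / Y + 1 / π ^ 2) * 2 ^ s +
        2 ^ s * (8 * 4 ^ s / 2 ^ i * (1 / Y + 1 / π ^ 2)) := by
      field_simp; ring
    have t2 : (1 - δ) * 4 ^ s ≤ 2 ^ s * (1 - d) * (2 ^ s * (1 - d)) := by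
      rw [h4s]
      have : (1 - δ) ≤ (1 - d) * (1 - d) := by nlinarith
      calc (1 - δ) * (2 ^ s * 2 ^ s) ≤ ((1 - d) * (1 - d)) * (2 ^ s * 2 ^ s) :=
            mul_le_mul_of_nonneg_right this (by positivity)
        _ = _ := by ring
    linarith
  calc (1 - 16 * (1 / Y + 1 / π ^ 2) / (2 ^ i / 2 ^ s) - δ) * (4 ^ s / 4 ^ i)
      = 1 / 4 ^ i * ((1 - 16 * (1 / Y + 1 / π ^ 2) / (2 ^ i / 2 ^ s) - δ) * 4 ^ s) := by ring
    _ ≤ _ := mul_le_mul_of_nonneg_left hfin (by positivity)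

end Vale.Agent.P159.TM.H970
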